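import Vale.Agent.P050.R2.H545.HubC4

/-!
# P050: a vertex whose non-neighbours are dominated by its neighbours
-/

namespace Vale.Agent.P050.Books

open Finset Vale.Agent.P050.Lev Vale.Agent.P050.Ears

/-- Every vertex `w` of the other part that is not adjacent to `b` has all its neighbours
adjacent to one and the same neighbour of `b` (the number of these neighbours of `b` is `c w`);
and the sum of `1 / c w` is at most the number of the other vertices adjacent to all
neighbours of `b`. -/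
theorem gsid_of_dominated {V : Type} [Fintype V] [DecidableEq V] {H : SimpleGraph V}
    {side : V → Bool} (hs : ∀ u v, H.Adj u v → side u ≠ side v) (hi : ∀ v, ∃ u, H.Adj v u)
    {b : V} {W : Finset V} (hW : ∀ w, w ∈ W ↔ side w ≠ side b ∧ ¬ H.Adj b w)
    (hw : ∀ w ∈ W, ∃ a, H.Adj b a ∧ ∀ z, H.Adj w z → H.Adj z a)
    (hle : ∑ w ∈ W, (1 : ℝ) / Nat.card {a : V // H.Adj b a ∧ ∀ z, H.Adj w z → H.Adj z a} ≤
      Nat.card {z : V // z ≠ b ∧ ∀ a, H.Adj b a → H.Adj z a}) : GSid H side := by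
  classical
  let A₀ : Finset V := univ.filter fun a => H.Adj b a
  have hA : ∀ a, a ∈ A₀ ↔ H.Adj b a := fun a => by simp [A₀]
  let q : V → ℕ := fun z => Nat.card {a : V // a ∈ A₀ ∧ H.Adj z a}
  let t : V → ℕ := fun w => Nat.card {a : V // a ∈ A₀ ∧ ∃ z, H.Adj w z ∧ H.Adj z a}
  let c : V → ℕ := fun w => Nat.card {a : V // H.Adj b a ∧ ∀ z, H.Adj w z → H.Adj z a}
  have hqn : ∀ z, q z = (A₀.filter fun a => H.Adj z a).card := fun z =>
    natCard_mem (A₀.filter fun a => H.Adj z a) _ fun a => by simp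
  have htn : ∀ w, t w ≤ A₀.card := fun w => by
    have h1 : t w = (A₀.filter fun a => ∃ z, H.Adj w z ∧ H.Adj z a).card :=
      natCard_mem (A₀.filter fun a => ∃ z, H.Adj w z ∧ H.Adj z a) _ fun a => by simp
    rw [h1]
    exact Finset.card_le_card (Finset.filter_subset _ _)
  have hcn : ∀ w, c w = (A₀.filter fun a => ∀ z, H.Adj w z → H.Adj z a).card := fun w =>
    natCard_mem (A₀.filter fun a => ∀ z, H.Adj w z → H.Adj z a) _ fun a => by simp [hA]
  have hc1 : ∀ w ∈ W, 1 ≤ c w := by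
    intro w hwW
    obtain ⟨a, ha, haw⟩ := hw w hwW
    rw [hcn]
    exact Finset.card_pos.2 ⟨a, mem_filter.2 ⟨(hA a).2 ha, haw⟩⟩
  have hz : ∀ z, side z = side b → 1 ≤ q z := by
    intro z hzb
    rw [hqn]
    obtain ⟨w, hzw⟩ := hi z
    by_cases hbw : H.Adj b w
    · exact Finset.card_pos.2 ⟨w, mem_filter.2 ⟨(hA w).2 hbw, hzw⟩⟩
    · have hwW : w ∈ W := (hW w).2 ⟨fun h => hs z w hzw (hzb.trans h.symm), hbw⟩
      obtain ⟨a, ha, haw⟩ := hw w hwW
      exact Finset.card_pos.2 ⟨a, mem_filter.2 ⟨(hA a).2 ha, haw z hzw.symm⟩⟩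
  let Z : Finset V := univ.filter fun z => side z = side b ∧ z ≠ b
  let N : V → Finset V := fun w => univ.filter fun z => H.Adj w z
  refine gsid_of_hubc hs (A₀ := A₀) (fun a ha => (hA a).1 ha) q t c (fun z => rfl)
    (fun w => rfl) hz Z W N (fun z => by simp [Z]) (fun w => by rw [hW, hA])
    (fun w z => by simp [N]) ?_ ?_
  · intro w hwW
    refine ⟨hi w, hc1 w hwW, ?_⟩
    rw [hcn, natCard_mem (A₀.filter fun a => ∀ z, H.Adj w z → H.Adj z a) _ fun a => by simp]
  · intro m _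
    -- the vertices which are adjacent to all neighbours of `b`
    let F : Finset V := univ.filter fun z => z ≠ b ∧ ∀ a, H.Adj b a → H.Adj z a
    have hF : Nat.card {z : V // z ≠ b ∧ ∀ a, H.Adj b a → H.Adj z a} = F.card :=
      natCard_mem F _ fun a => by simp [F]
    have hFZ : F ⊆ Z := by
      intro z hz
      obtain ⟨-, h1, h2⟩ := mem_filter.1 hz
      refine mem_filter.2 ⟨mem_univ _, ?_, h1⟩
      obtain ⟨a, ha⟩ := hi b
      have h3 := hs b a ha
      have h4 := hs z a (h2 a ha)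
      revert h3 h4
      cases side z <;> cases side b <;> cases side a <;> simp
    have hqF : ∀ z ∈ F, q z = A₀.card := by
      intro z hz
      obtain ⟨-, -, h2⟩ := mem_filter.1 hz
      rw [hqn, Finset.filter_true_of_mem fun a ha => h2 a ((hA a).1 ha)]
    have h1 : ∑ w ∈ W, ((min (c w) (t w + 1 - m) : ℕ) : ℝ) / c w ≤
        ∑ w ∈ W, ((A₀.card + 1 - m : ℕ) : ℝ) * ((1 : ℝ) / c w) := by
      refine Finset.sum_le_sum fun w _ => ?_
      rw [mul_one_div]
      refine div_le_div_of_nonneg_right ?_ (Nat.cast_nonneg _)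
      have h2 := htn w
      exact_mod_cast (min_le_right _ _).trans (by omega)
    have h2 : ∑ z ∈ F, ((A₀.card + 1 - m : ℕ) : ℝ) ≤ ∑ z ∈ Z, ((q z + 1 - m : ℕ) : ℝ) := by
      have h3 : ∑ z ∈ F, ((A₀.card + 1 - m : ℕ) : ℝ) = ∑ z ∈ F, ((q z + 1 - m : ℕ) : ℝ) :=
        Finset.sum_congr rfl fun z hz => by rw [hqF z hz]
      rw [h3]
      exact Finset.sum_le_sum_of_subset_of_nonneg hFZ fun z _ _ => Nat.cast_nonneg _
    rw [Finset.sum_const, nsmul_eq_mul] at h2
    rw [← Finset.mul_sum] at h1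
    rw [hF] at hle
    have h4 : ((A₀.card + 1 - m : ℕ) : ℝ) * ∑ w ∈ W, (1 : ℝ) / c w ≤
        ((A₀.card + 1 - m : ℕ) : ℝ) * F.card := mul_le_mul_of_nonneg_left hle (Nat.cast_nonneg _)
    have h5 : 0 ≤ ∑ w ∈ W, ∑ z ∈ N w, ((min (c w) (q z + 1 - m) : ℕ) : ℝ) / c w :=
      Finset.sum_nonneg fun w _ => Finset.sum_nonneg fun z _ =>
        div_nonneg (Nat.cast_nonneg _) (Nat.cast_nonneg _)
    linarith [mul_comm ((A₀.card + 1 - m : ℕ) : ℝ) (F.card : ℝ)]

end Vale.Agent.P050.Books
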