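import Vale.Agent.P050.R4.H22.Top

/-!
# P050: codegrees of traces of a hub, general lower bound
-/

set_option linter.unusedSectionVars false

namespace Vale.Agent.P050.Books

open Finset Vale.Agent.P050.Lev Vale.Agent.P050.Ears

section Low

variable {V S : Type} [Fintype V] [DecidableEq V] [Fintype S]
  {side : V → Bool} {A : Matrix S S ℝ} {μ : S → ℝ} {c : S → Bool}

/-- for a set of vertices `C` of `A₀`, which is added at the end -/
theorem IsFan.low (h : Rev A μ c) {U : Finset V} {ρ : (V → S) → ℝ} (hρ : ∀ z, 0 ≤ ρ z)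
    (hone : EM side μ c ρ = 1) {A₀ Z : Finset V} {Q : V → Finset V}
    (hf : IsFan side A μ c U ρ A₀ Z Q) {R T C : Finset V} (hR : R ⊆ Z) (hT : T ⊆ A₀)
    (hQT : ∀ u ∈ R, Q u ⊆ T) (hC : C ⊆ T) (hCn : ∀ i ∈ C, ∃ u ∈ R, i ∈ Q u) :
    ∑ u ∈ R, (DD side μ c ρ (Q u) - DD side μ c ρ (Q u \ C)) -
      (DD side μ c ρ T - DD side μ c ρ (T \ C)) ≤
        ∑ i ∈ C, MM side A μ c ρ (R.filter fun u => i ∈ Q u) := by
  have hCA : C ⊆ A₀ := hC.trans hT
  have hAZ : ∀ i ∈ A₀, i ∉ Z := fun i hi hm => hf.sd i hm i hi rfl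
  -- (i) the vertices of `C` are added at the end
  have h1 : ∀ C' : Finset V, C' ⊆ C → DD side μ c ρ (T \ C ∪ R) + ∑ i ∈ C',
      (∑ u ∈ R.filter (fun u => i ∈ Q u), ee side A μ c ρ u i -
        MM side A μ c ρ (R.filter fun u => i ∈ Q u)) ≤
        DD side μ c ρ (C' ∪ (T \ C ∪ R)) := by
    intro C'
    induction C' using Finset.induction_on with
    | empty =>
      intro _
      rw [Finset.sum_empty, add_zero, Finset.empty_union]
    | insert i C' hi ih =>
      intro hsub
      have hiC : i ∈ C := hsub (mem_insert_self _ _)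
      have h3 := ih ((Finset.subset_insert _ _).trans hsub)
      have hiR : i ∉ R := fun hm => hAZ i (hCA hiC) (hR hm)
      have hiW : i ∉ C' ∪ (T \ C ∪ R) := by
        rw [mem_union, mem_union, mem_sdiff]
        rintro (h4 | h4 | h4)
        · exact hi h4
        · exact h4.2 hiC
        · exact hiR h4
      rw [Finset.sum_insert hi, Finset.insert_union]
      have h4 : (R.filter fun u => i ∈ Q u).Nonempty := by
        obtain ⟨u, hu, hiu⟩ := hCn i hiC
        exact ⟨u, mem_filter.2 ⟨hu, hiu⟩⟩
      have h5 := DD_kl (side := side) h hρ hone hiW (R := R.filter fun u => i ∈ Q u)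
        ((Finset.filter_subset _ _).trans
          (Finset.subset_union_right.trans Finset.subset_union_right)) h4
        (fun u hu => (hf.sd u (hR (mem_filter.1 hu).1) i (hCA hiC)).symm)
        (fun z hz h0 u hu => by
          rw [kk_symm h]
          exact hf.kp z hz h0 u (hR (mem_filter.1 hu).1) i (mem_filter.1 hu).2)
      linarith
  -- (ii) the vertices of `R` over the rest of `T`
  have h2 : ∀ R' : Finset V, R' ⊆ R → DD side μ c ρ (T \ C) + ∑ u ∈ R',
      (∑ i ∈ Q u \ C, ee side A μ c ρ i u - DD side μ c ρ (Q u \ C)) ≤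
        DD side μ c ρ (T \ C ∪ R') := by
    intro R'
    induction R' using Finset.induction_on with
    | empty =>
      intro _
      rw [Finset.sum_empty, add_zero, Finset.union_empty]
    | insert u R' hu ih =>
      intro hsub
      have huR : u ∈ R := hsub (mem_insert_self _ _)
      have h3 := ih ((Finset.subset_insert _ _).trans hsub)
      have hQP : Q u \ C ⊆ T \ C := Finset.sdiff_subset_sdiff (hQT u huR) (Finset.Subset.refl _)
      have hPA : T \ C ⊆ A₀ := Finset.sdiff_subset.trans hT
      have huA : u ∉ A₀ := fun hm => hf.sd u (hR huR) u hm rfl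
      have huW : u ∉ T \ C ∪ R' := by
        rw [mem_union, not_or]
        exact ⟨fun hm => huA (hPA hm), hu⟩
      rw [Finset.sum_insert hu, Finset.union_insert]
      rcases Finset.eq_empty_or_nonempty (Q u \ C) with h4 | h4
      · rw [h4, Finset.sum_empty, DD_empty (side := side) h hone]
        have h5 := DD_mono (side := side) h hρ hone (Finset.subset_insert u (T \ C ∪ R'))
        linarith
      · have h5 := DD_kl (side := side) h hρ hone huW (R := Q u \ C)
          (hQP.trans Finset.subset_union_left) h4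
          (fun i hi => hf.sd u (hR huR) i (hPA (hQP hi)))
          (fun z hz h0 i hi => hf.kp z hz h0 u (hR huR) i (mem_sdiff.1 hi).1)
        rw [hf.star _ (hQP.trans hPA) h4] at h5
        linarith
  have h3 := h1 C (Finset.Subset.refl _)
  have h4 := h2 R (Finset.Subset.refl _)
  have e1 : C ∪ (T \ C ∪ R) = T ∪ R := by
    rw [← Finset.union_assoc, Finset.union_sdiff_of_subset hC]
  rw [e1] at h3
  -- (iii)
  have h5 := hf.fan T hT R hR hQT
  have h6 : ∀ u ∈ R, ∑ i ∈ Q u, ee side A μ c ρ i u - MM side A μ c ρ (Q u) =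
      (∑ i ∈ C.filter (fun i => i ∈ Q u), ee side A μ c ρ u i +
        ∑ i ∈ Q u \ C, ee side A μ c ρ i u) - DD side μ c ρ (Q u) := by
    intro u hu
    rw [hf.star (Q u) (hf.qs u (hR hu)) (hf.qn u (hR hu))]
    have e2 : ∑ i ∈ C.filter (fun i => i ∈ Q u), ee side A μ c ρ u i =
        ∑ i ∈ Q u ∩ C, ee side A μ c ρ i u := by
      have e3 : C.filter (fun i => i ∈ Q u) = Q u ∩ C := by
        ext x
        simp only [mem_filter, mem_inter]
        tauto
      rw [e3]
      exact Finset.sum_congr rfl fun i _ => ee_symm h ρ u i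
    rw [e2, Finset.sum_inter_add_sum_sdiff]
  have e4 : ∑ u ∈ R, ∑ i ∈ C.filter (fun i => i ∈ Q u), ee side A μ c ρ u i =
      ∑ i ∈ C, ∑ u ∈ R.filter (fun u => i ∈ Q u), ee side A μ c ρ u i := by
    simp only [Finset.sum_filter]
    exact Finset.sum_comm
  rw [Finset.sum_congr rfl h6, Finset.sum_sub_distrib, Finset.sum_add_distrib, e4] at h5
  rw [Finset.sum_sub_distrib] at h3 h4
  rw [Finset.sum_sub_distrib]
  linarith

end Low

end Vale.Agent.P050.Books
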