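import Vale.Agent.P050.R4.H22.PlanDef

/-!
# P050: a hub gives a plan with nonnegative gains
-/

namespace Vale.Agent.P050.Books

open Finset

/-- the earlier elements of a finite set ordered by an injective rank -/
theorem card_earlier {V : Type} [DecidableEq V] (A : Finset V) (r : V → ℕ)
    (hr : ∀ u ∈ A, ∀ v ∈ A, r u = r v → u = v) (m : ℕ) :
    (A.filter fun a => m ≤ (A.filter fun u => r u < r a).card + 1).card ≤ A.card + 1 - m := by
  classical
  have hinj : ∀ a ∈ A, ∀ a' ∈ A, (A.filter fun u => r u < r a).card + 1 =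
      (A.filter fun u => r u < r a').card + 1 → a = a' := by
    have key : ∀ a ∈ A, ∀ a' ∈ A, r a < r a' → (A.filter fun u => r u < r a).card <
        (A.filter fun u => r u < r a').card := by
      intro a ha a' _ hlt
      apply Finset.card_lt_card
      refine ⟨fun u hu => ?_, fun hsub => ?_⟩
      · rw [mem_filter] at hu ⊢
        exact ⟨hu.1, hu.2.trans hlt⟩
      · have := hsub (mem_filter.2 ⟨ha, hlt⟩)
        rw [mem_filter] at this
        exact lt_irrefl _ this.2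
    intro a ha a' ha' he
    rcases lt_trichotomy (r a) (r a') with h | h | h
    · have := key a ha a' ha' h
      omega
    · exact hr a ha a' ha' h
    · have := key a' ha' a ha h
      omega
  have h1 : (A.filter fun a => m ≤ (A.filter fun u => r u < r a).card + 1).card =
      ((A.filter fun a => m ≤ (A.filter fun u => r u < r a).card + 1).image
        fun a => (A.filter fun u => r u < r a).card + 1).card := by
    rw [Finset.card_image_of_injOn]
    intro a ha a' ha' he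
    rw [mem_coe, mem_filter] at ha ha'
    exact hinj a ha.1 a' ha'.1 he
  rw [h1]
  have h2 : ((A.filter fun a => m ≤ (A.filter fun u => r u < r a).card + 1).image
      fun a => (A.filter fun u => r u < r a).card + 1) ⊆ Finset.Icc m A.card := by
    intro k hk
    rw [mem_image] at hk
    obtain ⟨a, ha, rfl⟩ := hk
    rw [mem_filter] at ha
    rw [mem_Icc]
    refine ⟨ha.2, ?_⟩
    apply Nat.succ_le_of_lt
    apply Finset.card_lt_card
    refine ⟨Finset.filter_subset _ _, fun hsub => ?_⟩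
    have := hsub ha.1
    rw [mem_filter] at this
    exact lt_irrefl _ this.2
  calc _ ≤ (Finset.Icc m A.card).card := Finset.card_le_card h2
    _ = A.card + 1 - m := by rw [Nat.card_Icc]

/-- A hub gives a plan with nonnegative gains. -/
theorem plan_of_hub {V : Type} [Fintype V] {H : SimpleGraph V} {side : V → Bool}
    (hs : ∀ u v, H.Adj u v → side u ≠ side v) {b : V} {A₀ : Finset V}
    (hb : ∀ a ∈ A₀, H.Adj b a) (hz : ∀ z, side z = side b → ∃ a ∈ A₀, H.Adj z a)
    (hw : ∀ w, side w ≠ side b → w ∉ A₀ → ∃ r a, H.Adj w r ∧ a ∈ A₀ ∧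
      ∀ u, H.Adj w u → H.Adj u a ∧ ∀ x ∈ A₀, H.Adj u x → H.Adj r x) :
    ∃ P : Plan H side (!side b), ∀ m, 0 ≤ P.gain m := by
  classical
  have hbb : ∀ x : V, side x = !side b ↔ side x ≠ side b := fun x => by
    cases side x <;> cases side b <;> simp
  have hbb' : ∀ x : V, side x ≠ !side b ↔ side x = side b := fun x => by
    cases side x <;> cases side b <;> simp
  let r : V → ℕ := fun v => (Fintype.equivFin V v : ℕ)
  have hr : ∀ u v, r u = r v → u = v := fun u v h =>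
    (Fintype.equivFin V).injective (Fin.ext h)
  have hQ : ∀ z, side z ≠ !side b → (A₀.filter fun a => H.Adj z a).Nonempty := fun z h => by
    obtain ⟨a, ha, hza⟩ := hz z ((hbb' z).1 h)
    exact ⟨a, mem_filter.2 ⟨ha, hza⟩⟩
  let P : Plan H side (!side b) :=
    { A := A₀
      K := ⊤
      r := r
      R := fun a => A₀.filter fun u => r u < r a
      Q := fun z => A₀.filter fun a => H.Adj z a
      T := fun w => univ.filter fun u => ∃ z, H.Adj w z ∧ u ∈ A₀.filter fun a => H.Adj z a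
      c := fun _ => 1
      sA := fun a ha => (hbb a).2 (hs b a (hb a ha)).symm
      inj := fun u _ v _ h => hr u v h
      hR := fun a _ u => by
        rw [mem_filter, SimpleGraph.top_adj]
        refine ⟨fun h => ⟨h.1, fun he => ?_, h.2⟩, fun h => ⟨h.1, h.2.2⟩⟩
        rw [he] at h
        exact lt_irrefl _ h.2
      cR := fun a _ u _ v _ huv => huv
      hQ := fun z h => ⟨hQ z h, fun a ha => by
        rw [mem_filter] at ha
        exact ha, fun u _ v _ huv => huv⟩
      copy := fun a ha h => by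
        obtain ⟨z, h1, h2⟩ := h
        exact absurd (mem_filter.2 ⟨ha, h1.symm⟩) h2
      hT := fun w _ _ => ⟨fun u => by simp, fun u _ v _ huv => huv⟩
      top := fun w hw1 hw2 => ⟨le_rfl, by
        obtain ⟨r', a, _, ha, h2⟩ := hw w ((hbb w).1 hw1) hw2
        have : Nonempty {a : V // ∀ z, H.Adj w z → a ∈ A₀.filter fun a => H.Adj z a} :=
          ⟨⟨a, fun z hz' => mem_filter.2 ⟨ha, (h2 z hz').1⟩⟩⟩
        exact Nat.card_pos⟩ }
  refine ⟨P, fun m => ?_⟩
  unfold Plan.gain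
  have e1 : (((P.A.filter fun a => m ≤ (P.R a).card + 1).card : ℕ) : ℝ) ≤
      (((P.Q b).card + 1 - m : ℕ) : ℝ) := by
    have h1 : P.Q b = A₀ := by
      apply Finset.filter_true_of_mem
      exact hb
    rw [h1]
    exact_mod_cast card_earlier A₀ r (fun u _ v _ h => hr u v h) m
  have e2 : (((P.Q b).card + 1 - m : ℕ) : ℝ) ≤
      ∑ z with side z ≠ !side b, (((P.Q z).card + 1 - m : ℕ) : ℝ) :=
    Finset.single_le_sum (f := fun z => (((P.Q z).card + 1 - m : ℕ) : ℝ))
      (fun z _ => Nat.cast_nonneg _)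
      (mem_filter.2 ⟨mem_univ b, (hbb' b).2 rfl⟩)
  have e3 : 0 ≤ ∑ a ∈ P.A,
      ((univ.filter fun z => H.Adj a z ∧ a ∉ P.Q z ∧ m ≤ (P.Q z).card).card : ℝ) :=
    Finset.sum_nonneg fun a _ => Nat.cast_nonneg _
  have e4 : 0 ≤ ∑ w with side w = (!side b) ∧ w ∉ P.A,
      ((∑ z with H.Adj w z, ((min (P.c w) ((P.Q z).card + 1 - m) : ℕ) : ℝ)) -
        ((min (P.c w) ((P.T w).card + 1 - m) : ℕ) : ℝ)) / P.c w := by
    apply Finset.sum_nonneg
    intro w hw1
    rw [mem_filter] at hw1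
    obtain ⟨r', a, h1, ha, h2⟩ := hw w ((hbb w).1 hw1.2.1) hw1.2.2
    have hT : P.T w = P.Q r' := by
      ext u
      change u ∈ univ.filter _ ↔ u ∈ A₀.filter _
      rw [mem_filter, mem_filter]
      constructor
      · rintro ⟨_, z, hz1, hz2⟩
        rw [mem_filter] at hz2
        exact ⟨hz2.1, (h2 z hz1).2 u hz2.1 hz2.2⟩
      · rintro ⟨h3, h4⟩
        exact ⟨mem_univ _, r', h1, mem_filter.2 ⟨h3, h4⟩⟩
    rw [hT]
    apply div_nonneg _ (Nat.cast_nonneg _)
    rw [sub_nonneg]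
    exact Finset.single_le_sum
      (f := fun z => ((min (P.c w) ((P.Q z).card + 1 - m) : ℕ) : ℝ))
      (fun z _ => Nat.cast_nonneg _) (mem_filter.2 ⟨mem_univ r', h1⟩)
  linarith

theorem natCard_filter {V : Type} [Fintype V] (p : V → Prop) [DecidablePred p] :
    Nat.card {a : V // p a} = (univ.filter p).card := by
  rw [Nat.card_eq_fintype_card, Fintype.card_subtype]

theorem of_mem_filter {V : Type} {p : V → Prop} {inst : DecidablePred p} {s : Finset V} {a : V}
    (h : a ∈ @Finset.filter V p inst s) : p a := (Finset.mem_filter.1 h).2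

theorem bool_eq : ∀ x y z : Bool, x ≠ z → x ≠ y → y = z := by decide

/-- The hypotheses of `gsid_of_dom` give a plan, and its gain is the difference of the two sides
of the inequality assumed there. -/
theorem plan_of_dom {V : Type} [Fintype V] [DecidableEq V] {H : SimpleGraph V}
    {side : V → Bool} (hs : ∀ u v, H.Adj u v → side u ≠ side v) (hiso : ∀ v, ∃ u, H.Adj v u)
    (σ : Bool) (A₀ Z W : Finset V) (N : V → Finset V) (hσ : ∀ a ∈ A₀, side a = σ)
    (hZ : ∀ z, z ∈ Z ↔ side z ≠ σ) (hW : ∀ w, w ∈ W ↔ side w = σ ∧ w ∉ A₀)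
    (hN : ∀ w z, z ∈ N w ↔ H.Adj w z) (K : SimpleGraph V) (r : V → ℕ)
    (hr : ∀ u ∈ A₀, ∀ v ∈ A₀, r u = r v → u = v)
    (hK : ∀ a ∈ A₀, ∀ u ∈ A₀, ∀ v ∈ A₀, K.Adj a u → K.Adj a v → r u < r a → r v < r a →
      u ≠ v → K.Adj u v) (p q t c : V → ℕ)
    (hp : ∀ a, p a = Nat.card {u : V // u ∈ A₀ ∧ K.Adj a u ∧ r u < r a})
    (hq : ∀ z, q z = Nat.card {a : V // a ∈ A₀ ∧ H.Adj z a})
    (ht : ∀ w, t w = Nat.card {a : V // a ∈ A₀ ∧ ∃ z, H.Adj w z ∧ H.Adj z a})
    (hzK : ∀ z, side z ≠ σ → ∀ u ∈ A₀, ∀ v ∈ A₀, H.Adj z u → H.Adj z v → u ≠ v → K.Adj u v)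
    (hwK : ∀ w ∈ W, ∀ u ∈ A₀, ∀ v ∈ A₀, (∃ z, H.Adj w z ∧ H.Adj z u) →
      (∃ z, H.Adj w z ∧ H.Adj z v) → u ≠ v → K.Adj u v)
    (hw : ∀ w ∈ W, 1 ≤ c w ∧
      c w ≤ Nat.card {a : V // a ∈ A₀ ∧ ∀ z, H.Adj w z → H.Adj z a}) :
    ∃ P : Plan H side σ, ∀ m, P.gain m = ∑ z ∈ Z, ((q z + 1 - m : ℕ) : ℝ) +
      ∑ w ∈ W, ∑ z ∈ N w, ((min (c w) (q z + 1 - m) : ℕ) : ℝ) / c w -
        (((A₀.filter fun a => m ≤ p a + 1).card : ℝ) +
          ∑ w ∈ W, ((min (c w) (t w + 1 - m) : ℕ) : ℝ) / c w) := by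
  classical
  have hZne : ∀ z, side z ≠ σ → ∃ a ∈ A₀, H.Adj z a := by
    intro z hz
    obtain ⟨u, hu⟩ := hiso z
    have hus : side u = σ := bool_eq _ _ _ hz (hs z u hu)
    by_cases hA : u ∈ A₀
    · exact ⟨u, hA, hu⟩
    · have h1 := hw u ((hW u).2 ⟨hus, hA⟩)
      have h2 : 0 < Nat.card {a : V // a ∈ A₀ ∧ ∀ z, H.Adj u z → H.Adj z a} :=
        lt_of_lt_of_le (by omega) h1.2
      obtain ⟨⟨a, ha1, ha2⟩⟩ := (Nat.card_pos_iff.1 h2).1
      exact ⟨a, ha1, ha2 z hu.symm⟩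
  let P : Plan H side σ :=
    { A := A₀
      K := K
      r := r
      R := fun a => A₀.filter fun u => K.Adj a u ∧ r u < r a
      Q := fun z => A₀.filter fun a => H.Adj z a
      T := fun w => A₀.filter fun a => ∃ z, H.Adj w z ∧ H.Adj z a
      c := c
      sA := hσ
      inj := hr
      hR := fun a _ u => by rw [mem_filter]
      cR := fun a ha u hu v hv huv => by
        rw [mem_filter] at hu hv
        exact hK a ha u hu.1 v hv.1 hu.2.1 hv.2.1 hu.2.2 hv.2.2 huv
      hQ := fun z h => ⟨by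
        obtain ⟨a, ha, hza⟩ := hZne z h
        exact ⟨a, mem_filter.2 ⟨ha, hza⟩⟩, fun a ha => by
        rw [mem_filter] at ha
        exact ha, fun u hu v hv huv => by
        rw [mem_filter] at hu hv
        exact hzK z h u hu.1 v hv.1 hu.2 hv.2 huv⟩
      copy := fun a ha h => by
        obtain ⟨z, h1, h2⟩ := h
        exact absurd (mem_filter.2 ⟨ha, h1.symm⟩) h2
      hT := fun w hw1 hw2 => ⟨fun u => by
        rw [mem_filter]
        constructor
        · rintro ⟨h1, z, h2, h3⟩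
          exact ⟨z, h2, mem_filter.2 ⟨h1, h3⟩⟩
        · rintro ⟨z, h2, h3⟩
          rw [mem_filter] at h3
          exact ⟨h3.1, z, h2, h3.2⟩, fun u hu v hv huv => by
        rw [mem_filter] at hu hv
        exact hwK w ((hW w).2 ⟨hw1, hw2⟩) u hu.1 v hv.1 hu.2 hv.2 huv⟩
      top := fun w hw1 hw2 => by
        obtain ⟨h1, h2⟩ := hw w ((hW w).2 ⟨hw1, hw2⟩)
        refine ⟨h1, h2.trans (le_of_eq ?_)⟩
        obtain ⟨z₀, hz₀⟩ := hiso w
        refine Nat.card_congr (Equiv.subtypeEquivRight fun a => ?_)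
        constructor
        · rintro ⟨h3, h4⟩ z hz
          exact mem_filter.2 ⟨h3, h4 z hz⟩
        · intro h3
          exact ⟨(mem_filter.1 (h3 z₀ hz₀)).1, fun z hz => (mem_filter.1 (h3 z hz)).2⟩ }
  have hP : ∃ P : Plan H side σ, P.A = A₀ ∧ P.c = c ∧
      (∀ a u, u ∈ P.R a ↔ u ∈ A₀ ∧ K.Adj a u ∧ r u < r a) ∧
      (∀ z a, a ∈ P.Q z ↔ a ∈ A₀ ∧ H.Adj z a) ∧
      ∀ w a, a ∈ P.T w ↔ a ∈ A₀ ∧ ∃ z, H.Adj w z ∧ H.Adj z a :=
    ⟨P, rfl, rfl, fun a u => mem_filter, fun z a => mem_filter, fun w a => mem_filter⟩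
  clear P
  obtain ⟨P, hPA, hPc, hPR, hPQ, hPT⟩ := hP
  refine ⟨P, fun m => ?_⟩
  have hq' : ∀ z, (P.Q z).card = q z := fun z => by
    rw [hq, natCard_filter]
    refine congrArg Finset.card ?_
    ext a
    simp [hPQ]
  have ht' : ∀ w, (P.T w).card = t w := fun w => by
    rw [ht, natCard_filter]
    refine congrArg Finset.card ?_
    ext a
    simp [hPT]
  have hp' : ∀ a, (P.R a).card = p a := fun a => by
    rw [hp, natCard_filter]
    refine congrArg Finset.card ?_
    ext u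
    simp [hPR]
  have hfin : ∀ x1 x2 x3 x4 y1 y3 y4 y5 : ℝ, x1 = y1 → x2 = 0 → x3 = y3 → x4 = y4 - y5 →
      x1 + x2 - x3 + x4 = y1 + y4 - (y3 + y5) := by
    intro x1 x2 x3 x4 y1 y3 y4 y5 h1 h2 h3 h4
    rw [h1, h2, h3, h4]
    ring
  unfold Plan.gain
  refine hfin _ _ _ _ _ _ _ _ ?_ ?_ ?_ ?_
  · refine Finset.sum_congr ?_ fun z _ => ?_
    · ext z
      simp [hZ]
    · rw [hq']
  · apply Finset.sum_eq_zero
    intro a ha
    refine Nat.cast_eq_zero.2 (Finset.card_eq_zero.2 (Finset.eq_empty_of_forall_notMem ?_))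
    intro z hz
    obtain ⟨h1, h2, -⟩ := of_mem_filter hz
    exact h2 ((hPQ z a).2 ⟨hPA ▸ ha, h1.symm⟩)
  · refine congrArg (fun s : Finset V => (s.card : ℝ)) ?_
    ext a
    simp only [mem_filter, hp', hPA]
  · rw [← Finset.sum_sub_distrib]
    refine Finset.sum_congr ?_ fun w _ => ?_
    · ext w
      simp [hW, hPA]
    · rw [sub_div, Finset.sum_div, ht', hPc]
      refine congrArg₂ (· - ·) (Finset.sum_congr ?_ fun z _ => ?_) rfl
      · ext z
        simp [hN]
      · rw [hq']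

end Vale.Agent.P050.Books
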